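import Vale.Agent.P354SF.Bai
import Vale.Agent.P354Z.Q1

/-!
The literal statement P354Z.Q1 follows from P354XS.Q1.
-/

open scoped ContDiff ENNReal
open Set Filter Topology MeasureTheory

namespace Vale.Agent.P354SF

open Vale.Agent.P354I (X Dat ee pd dT dP rnd Sg Good)
open Vale.Agent.P354T (Sm DSm qf UP)
open Vale.Agent.P354XS Vale.Agent.P354XQ

variable {M a : ℝ} {ρ : X → ℝ}

lemma norm_sq3 (y : X) : ‖y‖ ^ 2 = y 0 ^ 2 + y 1 ^ 2 + y 2 ^ 2 := by
  rw [EuclideanSpace.real_norm_sq_eq, Fin.sum_univ_three]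

lemma s2_eq {y : X} (hy : y ≠ 0) : P354Z.s2 y = 1 - zc y ^ 2 := by
  have n0 := norm_ne_zero_iff.2 hy
  unfold P354Z.s2 zc
  field_simp
  linarith [norm_sq3 y]

lemma AA_eq (M a r : ℝ) {y : X} (hy : y ≠ 0) : P354Z.AA M a r y = AA M a r (zc y) := by
  unfold P354Z.AA AA
  rw [s2_eq hy]

lemma pd_s2 {y : X} (hy : y ≠ 0) (i : Fin 3) :
    fderiv ℝ P354Z.s2 y (ee i) = -2 * zc y * dZ y (ee i) := by
  have n0 := norm_ne_zero_iff.2 hy
  have h1 : HasFDerivAt (fun z : X => z 2) (EuclideanSpace.proj 2 : X →L[ℝ] ℝ) y :=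
    (EuclideanSpace.proj 2 : X →L[ℝ] ℝ).hasFDerivAt
  have h2 : HasFDerivAt (fun z : X => ‖z‖) (fderiv ℝ (fun z : X => ‖z‖) y) y :=
    (dif sm_norm hy).hasFDerivAt
  have h3 := (hasDerivAt_inv n0).comp_hasFDerivAt y h2
  have h4 := ((h1.mul h3).mul (h1.mul h3)).const_sub 1
  have h5 : P354Z.s2 =ᶠ[𝓝 y] fun z : X => 1 - z 2 * ‖z‖⁻¹ * (z 2 * ‖z‖⁻¹) :=
    ev_of (fun z hz => by rw [s2_eq hz]; unfold zc; ring) hy
  have h6 : fderiv ℝ (fun z : X => ‖z‖) y (ee i) = y i * ‖y‖⁻¹ := pd_norm i hy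
  rw [(h4.congr_of_eventuallyEq h5).fderiv]
  have h7 : inner ℝ y (ee i) = y i := by simp [ee, EuclideanSpace.inner_single_right]
  simp only [neg_apply, add_apply,
    smul_apply, smul_eq_mul, Function.comp, Pi.mul_apply, h6, dZ, dT, zc, h7]
  have h8 : (EuclideanSpace.proj 2 : X →L[ℝ] ℝ) (ee i) = ee i 2 := rfl
  rw [h8]
  field_simp
  ring

lemma hs_rot (M a : ℝ) {y : X} (hy : y ≠ 0) (h0 : Sg a (rad M a y) y ≠ 0) (v : X) :
    hs M a y (rot y) v = AA M a (rad M a y) (zc y) / Sg a (rad M a y) y * dP y v := by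
  have n0 := norm_ne_zero_iff.2 hy
  have h1 : dP y (rot y) = 1 - zc y ^ 2 := by
    rw [← s2_eq hy]
    simp only [dP, rot, P354Z.s2]
    simp
    ring
  have h2 : dT y (rot y) * dT y v + rnd y (rot y) v = dP y v := by
    simp only [rnd, dP, rot, PiLp.inner_apply, Fin.sum_univ_three]
    simp
    ring
  have h3 : Sg a (rad M a y) y = rad M a y ^ 2 + a ^ 2 * zc y ^ 2 := by
    unfold Sg zc
    rw [div_pow]
  unfold hs
  rw [h1, h2]
  rw [h3] at h0 ⊢
  unfold AA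
  field_simp
  ring

lemma del_eq (M a : ℝ) {y : X} (hy : y ≠ 0) :
    rad M a y ^ 2 - 2 * M * rad M a y + a ^ 2 = sd M a y ^ 2 := by
  have n0 := norm_ne_zero_iff.2 hy
  unfold rad sd
  field_simp
  ring

lemma AA_pos (h : |a| < M) {y : X} (hy : y ≠ 0) : 0 < AA M a (rad M a y) (zc y) := by
  have h1 := rad_pos h hy
  have h2 := M_pos h
  have h3 : 0 ≤ a ^ 2 * sd M a y ^ 2 * zc y ^ 2 := by positivity
  have h4 : 0 < rad M a y ^ 4 := by positivity
  have h5 : 0 ≤ a ^ 2 * rad M a y ^ 2 := by positivity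
  have h6 : 0 ≤ a ^ 2 * (M * rad M a y) := by positivity
  unfold AA
  rw [← del_eq M a hy] at h3
  nlinarith

lemma deriv_om {M a r z : ℝ} (h0 : AA M a r z ≠ 0) : deriv (om M a r) z =
    -(4 * M * a ^ 3 * r * (r ^ 2 - 2 * M * r + a ^ 2) * z) / AA M a r z ^ 2 := by
  have h1 : HasDerivAt (AA M a r) (a ^ 2 * (r ^ 2 - 2 * M * r + a ^ 2) * (2 * z)) z := by
    have := ((((hasDerivAt_id z).mul (hasDerivAt_id z)).const_sub 1).const_mul
      (a ^ 2 * (r ^ 2 - 2 * M * r + a ^ 2))).const_sub ((r ^ 2 + a ^ 2) ^ 2)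
    refine (this.congr_deriv (by simp only [id]; ring)).congr_of_eventuallyEq
      (Eventually.of_forall fun x => ?_)
    simp only [AA, id, Pi.mul_apply]
    ring
  have h2 := ((hasDerivAt_const z (2 * M * a * r)).div h1 h0).deriv
  have h3 : om M a r = (fun _ => 2 * M * a * r) / AA M a r := rfl
  rw [h3, h2]
  ring

lemma et_eq (h : |a| < M) {y : X} (hy : y ≠ 0) (i : Fin 3) : et M a y (ee i) =
    √(AA M a (rad M a y) (zc y) / Sg a (rad M a y) y) * P354Z.dOm M a y (ee i) := by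
  have h0 := (AA_pos h hy).ne'
  unfold et P354Z.dOm
  simp only [AA_eq M a _ hy, pd_s2 hy]
  have e1 : P354Z.rad M a y = rad M a y := rfl
  have e2 : P354Z.sD M a y = sd M a y := rfl
  rw [e1, e2, deriv_om h0, del_eq M a hy]
  congr 2
  by_cases hs : sd M a y = 0
  · simp [hs]
  · field_simp
    ring

/-- The two forms of the Kerr data agree. -/
theorem kerr0_eq (h : |a| < M) : P354Z.kerr0 M a = ds M a := by
  unfold P354Z.kerr0 ds
  congr 1
  funext y
  ext i j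
  simp only [Matrix.of_apply]
  by_cases hy : y = 0
  · simp [hy, hs, dP, dT, rnd]
  have h1 : 0 < Sg a (rad M a y) y := sg_pos h hy
  have h2 := Real.mul_self_sqrt (div_pos (AA_pos h hy) h1).le
  have e1 : P354Z.rad M a y = rad M a y := rfl
  rw [hs_rot M a hy h1.ne', hs_rot M a hy h1.ne', et_eq h hy, et_eq h hy, AA_eq M a _ hy, e1]
  generalize √(AA M a (rad M a y) (zc y) / Sg a (rad M a y) y) = s at h2 ⊢
  rw [← h2]
  ring

lemma covN_eq (k : Dat) (u : X → Matrix (Fin 3) (Fin 3) ℝ) (j : ℕ) :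
    P354Z.covN k u j = fun I y => nab k u j y I := by
  induction j with
  | zero => rfl
  | succ j ih =>
    show P354Z.cov k (2 + j) (P354Z.covN k u j) = _
    rw [ih]
    rfl

/-- The two forms of the seminorms agree. -/
theorem pn_eq' (k : Dat) (ρ : X → ℝ) (m : ℕ) (d d' : Dat) :
    P354Z.pn k ρ m d d' = pn k ρ m d d' := by
  unfold P354Z.pn pn P354Z.sn
  simp only [covN_eq]
  rfl

theorem isWt_iff : P354Z.IsWt M a ρ ↔ IsWt M a ρ :=
  ⟨fun h => ⟨h.1, h.2, h.3.imp fun _ hQ => ⟨hQ.2.1, hQ.1, hQ.2.2⟩⟩,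
    fun h => ⟨h.1, h.2.1, h.2.2.imp fun _ hQ => ⟨hQ.2.1, hQ.1, hQ.2.2⟩⟩⟩

/-- Uniformly positive metrics are complete. -/
theorem complete_of {d : Dat} {c : ℝ} (hc : 0 < c) (h : UP d c) : P354Z.Complete d := by
  intro γ h1 h0 hL
  set L := ∫⁻ t in Ioo (0 : ℝ) 1,
    ENNReal.ofReal √(∑ i, ∑ j, d.h (γ t) i j * deriv γ t i * deriv γ t j) with hLd
  let f : ℝ → ℝ := fun t => Real.log (‖γ t‖ ^ 2)
  have hf : ContDiffOn ℝ 1 f (Ioo 0 1) :=
    (h1.norm_sq ℝ).log fun t ht => pow_ne_zero 2 (norm_ne_zero_iff.2 (h0 t ht))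
  have sc := Real.sqrt_pos.2 hc
  have hd : ∀ t ∈ Ioo (0 : ℝ) 1, ‖deriv f t‖ₑ ≤ ENNReal.ofReal (2 / √c) *
      ENNReal.ofReal √(∑ i, ∑ j, d.h (γ t) i j * deriv γ t i * deriv γ t j) := by
    intro t ht
    have n0 := norm_pos_iff.2 (h0 t ht)
    have g1 : HasDerivAt γ (deriv γ t) t :=
      ((h1.contDiffAt (isOpen_Ioo.mem_nhds ht)).differentiableAt one_ne_zero).hasDerivAt
    have g2 := (g1.norm_sq.log (pow_ne_zero 2 n0.ne')).deriv
    have g3 := h _ (h0 t ht) (deriv γ t).ofLp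
    have g4 : qf (d.h (γ t)) (deriv γ t).ofLp =
        ∑ i, ∑ j, d.h (γ t) i j * deriv γ t i * deriv γ t j :=
      Finset.sum_congr rfl fun i _ => Finset.sum_congr rfl fun j _ => by ring
    rw [g4, ← EuclideanSpace.real_norm_sq_eq] at g3
    have g5 : √c * ‖deriv γ t‖ ≤
        ‖γ t‖ * √(∑ i, ∑ j, d.h (γ t) i j * deriv γ t i * deriv γ t j) := by
      have := Real.sqrt_le_sqrt g3
      rwa [Real.sqrt_mul hc.le, Real.sqrt_mul (sq_nonneg _), Real.sqrt_sq (norm_nonneg _),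
        Real.sqrt_sq (norm_nonneg _)] at this
    rw [← ENNReal.ofReal_mul (by positivity), Real.enorm_eq_ofReal_abs]
    refine ENNReal.ofReal_le_ofReal ?_
    rw [show deriv f t = _ from g2, abs_div, abs_of_pos (pow_pos n0 2), div_le_iff₀ (pow_pos n0 2),
      abs_mul, abs_two, div_mul_eq_mul_div, div_mul_eq_mul_div, le_div_iff₀ sc]
    have g6 := mul_le_mul_of_nonneg_right (abs_real_inner_le_norm (γ t) (deriv γ t)) sc.le
    have g7 := mul_le_mul_of_nonneg_left g5 n0.le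
    nlinarith
  have hB : ∀ s ∈ Ioo (0 : ℝ) 1, ∀ t ∈ Ioo (0 : ℝ) 1, s ≤ t →
      |f t - f s| ≤ (ENNReal.ofReal (2 / √c) * L).toReal := by
    intro s hs t ht hst
    have sub : Icc s t ⊆ Ioo 0 1 := fun x hx => ⟨hs.1.trans_le hx.1, hx.2.trans_lt ht.2⟩
    have g1 := enorm_sub_le_lintegral_deriv_of_contDiffOn_Icc (hf.mono sub) hst
    have g2 : ∫⁻ x in Icc s t, ‖deriv f x‖ₑ ≤ ENNReal.ofReal (2 / √c) * L := by
      refine (lintegral_mono_set sub).trans ?_
      rw [hLd, ← lintegral_const_mul' _ _ ENNReal.ofReal_ne_top]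
      exact setLIntegral_mono' measurableSet_Ioo hd
    rw [Real.enorm_eq_ofReal_abs] at g1
    exact (ENNReal.ofReal_le_iff_le_toReal
      (ENNReal.mul_ne_top ENNReal.ofReal_ne_top hL.ne)).1 (g1.trans g2)
  set B := (ENNReal.ofReal (2 / √c) * L).toReal + |f (1 / 2)|
  have hm : (1 / 2 : ℝ) ∈ Ioo (0 : ℝ) 1 := by norm_num
  have hf' : ∀ t ∈ Ioo (0 : ℝ) 1, |f t| ≤ B := by
    intro t ht
    have g1 : |f t - f (1 / 2)| ≤ (ENNReal.ofReal (2 / √c) * L).toReal := by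
      rcases le_total (1 / 2) t with x | x
      · exact hB _ hm t ht x
      · rw [abs_sub_comm]
        exact hB t ht _ hm x
    have g2 := abs_add_le (f t - f (1 / 2)) (f (1 / 2))
    rw [sub_add_cancel] at g2
    exact g2.trans (add_le_add g1 le_rfl)
  refine ⟨Metric.closedBall 0 (Real.exp (B / 2)) \ Metric.ball 0 (Real.exp (-(B / 2))),
    fun y hy e => hy.2 ?_, (isCompact_closedBall _ _).diff Metric.isOpen_ball, fun t ht => ?_⟩
  · rw [mem_singleton_iff.1 e]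
    exact Metric.mem_ball_self (Real.exp_pos _)
  · have n0 := norm_pos_iff.2 (h0 t ht)
    have g1 := abs_le.1 (hf' t ht)
    have g2 : f t = 2 * Real.log ‖γ t‖ := by simp [f]
    rw [g2] at g1
    refine ⟨mem_closedBall_zero_iff.2 ((Real.log_le_iff_le_exp n0).1 (by linarith [g1.2])), ?_⟩
    rw [mem_ball_zero_iff, not_lt]
    exact (Real.le_log_iff_exp_le n0).1 (by linarith [g1.1])

/-- The two descriptions of the data agree. -/
theorem isD_iff (hK : KD) (h : |a| < M) (hρ : IsWt M a ρ) {d : Dat} :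
    P354Z.IsD M a ρ d ↔ IsAF M a ρ d := by
  refine ⟨fun H => ⟨H.smooth, H.pos, fun m => ?_, H.hamilton, H.momentum⟩,
    fun H => ⟨H.smooth, H.pos, ?_, fun m => ?_, H.hamilton, H.momentum⟩⟩
  · rw [← pn_eq', ← kerr0_eq h]
    exact H.finite m
  · obtain ⟨C, -, hC⟩ := eqv M a ρ 0 h hρ
    obtain ⟨c, hc, hu⟩ := uw_all h H.smooth (fun y hy => (H.pos y hy).1)
      ((hC _ _ H.smooth (hK M a h).1.1).2.trans_lt
        (ENNReal.mul_lt_top ENNReal.ofReal_lt_top (H.finite 0)))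
    exact complete_of hc (hu.up hc.le)
  · rw [pn_eq', kerr0_eq h]
    exact H.finite m

/-- The literal space of data is homeomorphic to DA by the identity. -/
theorem exists_homeo' (hK : KD) (h : |a| < M) (hρ : IsWt M a ρ) :
    ∃ e : P354Z.DD M a ρ ≃ₜ DA M a, ∀ d, (e d).1 = d.1 := by
  let e0 : P354Z.DD M a ρ ≃ DD M a ρ := Equiv.subtypeEquivRight fun _ => isD_iff hK h hρ
  obtain ⟨e, he⟩ := exists_homeo eqv hK h hρ
  refine ⟨Homeomorph.trans ⟨e0, ?_, ?_⟩ e, fun d => he _⟩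
  · refine continuous_generateFrom_iff.2 ?_
    rintro _ ⟨d0, m, ε, rfl⟩
    refine TopologicalSpace.isOpen_generateFrom_of_mem ⟨e0.symm d0, m, ε, ?_⟩
    rw [kerr0_eq h]
    simp only [pn_eq']
    rfl
  · refine continuous_generateFrom_iff.2 ?_
    rintro _ ⟨d0, m, ε, rfl⟩
    refine TopologicalSpace.isOpen_generateFrom_of_mem ⟨e0 d0, m, ε, ?_⟩
    rw [kerr0_eq h]
    simp only [pn_eq']
    rfl

/-- The literal statement follows from Q1'. -/
theorem q1_lit (hK : KD) (hQ : Q1') : P354Z.Q1 := by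
  intro M a _ ha h ρ hρ
  obtain ⟨e, he⟩ := exists_homeo' hK h (isWt_iff.1 hρ)
  obtain ⟨m, η, hη, hm⟩ := hQ M a (abs_pos.1 ha) h
  have hU := (isOpen_BA (hK M a h).1.1 m η).preimage e.continuous
  have h2 : IsMeagre {d : e ⁻¹' BA M a m η | ¬ Good d.1.1} := by
    let f : (e ⁻¹' BA M a m η) ≃ₜ BA M a m η := e.subtype fun _ => Iff.rfl
    have := hm.preimage_of_isOpenMap f.continuous f.isOpenMap
    refine this.mono fun d hd => ?_
    have h1 : (f d).1.1 = d.1.1 := he d.1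
    show ¬ Good (f d).1.1
    rw [h1]
    exact hd
  refine ⟨e ⁻¹' BA M a m η, hU, ⟨e.symm (kerrPt hK h), ?_, ?_⟩,
    h2.mono fun d hd hG => P354Z.not_ext hG hd, h2, ?_⟩
  · rw [mem_preimage, e.apply_symm_apply]
    show qm m (ds M a) (ds M a) < ENNReal.ofReal η
    rw [qm_self]
    exact ENNReal.ofReal_pos.2 hη
  · rw [← he, e.apply_symm_apply, kerr0_eq h]
    rfl
  · have := baire h (hK M a h).1.1
    have := e.isOpenEmbedding.baireSpace
    have : BaireSpace (e ⁻¹' BA M a m η) := hU.isOpenEmbedding_subtypeVal.baireSpace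
    refine dense_of_mem_residual ?_
    have e : {d : e ⁻¹' BA M a m η | ¬ Good d.1.1}ᶜ = {d | Good d.1.1} := by
      ext d
      simp
    rw [← e]
    exact h2

end Vale.Agent.P354SF
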