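import Vale.Agent.P354SF.Stmt
import Vale.Agent.P354SF.Lit
import Vale.Agent.P354XE.Defs

/-!
The compact form of EXT is equivalent to the form which is used in the proofs.
-/

open scoped ContDiff ENNReal
open Set Filter Topology

namespace Vale.Agent.P354SF

open Vale.Agent.P354n (R4)
open Vale.Agent.P354I (X Dat)
open Vale.Agent.P354XS (KD BA qm)
open Vale.Agent.P354XQ (eqv exists_wt lt_of_le_mul dsm)

lemma wd_eq (M a : ℝ) (α : List (Fin 5)) (f : R4 → ℝ) : wd M a α f = P354XE.wd M a α f := by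
  induction α with
  | nil => rfl
  | cons i α ih =>
    funext p
    show fderiv ℝ (wd M a α f) p (vf M a i p) = fderiv ℝ (P354XE.wd M a α f) p (P354XE.vf M a i p)
    rw [ih]
    rfl

lemma wd_eq' : wd = P354XE.wd := by
  funext M a α f
  exact wd_eq M a α f

lemma Wb_eq : Wb = P354XE.Wb := by
  funext M a N f p c c'
  unfold Wb P354XE.Wb
  rw [wd_eq']

variable {M a r1 θ R s δ ε : ℝ} {N : ℕ} {g : Tw} {β : Fin 3 → R4 → ℝ} {p : R4} {Y Xf : R4 → R4}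
  {D : Set R4} {d : Dat}

lemma far_iff : Far M a s δ ε N g β p ↔ P354XE.Far M a s δ ε N g β p := by
  constructor
  · rintro ⟨h1, h2, h3, h4, h5, h6, h7, h8⟩
    rw [Wb_eq] at h3 h4 h5 h6 h7 h8
    rw [wd_eq'] at h4 h6
    exact ⟨h1, h2, h3, h4, h5, h6, h7, h8⟩
  · rintro ⟨h1, h2, h3, h4, h5, h6, h7, h8⟩
    rw [← Wb_eq] at h3 h4 h5 h6 h7 h8
    rw [← wd_eq'] at h4 h6
    exact ⟨h1, h2, h3, h4, h5, h6, h7, h8⟩

/-- The parameters in the two forms. -/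
def Par.to (q : Par) : P354XE.Par := ⟨q.M, q.a, q.l, q.R⟩
def Par.of (q : P354XE.Par) : Par := ⟨q.M, q.a, q.l, q.R⟩

lemma isEnd_iff {q q' : Par} : IsEnd M a r1 θ R s δ ε N g Y q q' β ↔
    P354XE.IsEnd M a r1 θ R s δ ε N g Y q.to q'.to β :=
  ⟨fun h => ⟨h.par, h.near, h.conv, fun p h1 h2 => ⟨(h.far p h1 h2).1, far_iff.1 (h.far p h1 h2).2⟩⟩,
    fun h => ⟨h.par, h.near, h.conv, fun p h1 h2 =>
      ⟨(h.far p h1 h2).1, far_iff.2 (h.far p h1 h2).2⟩⟩⟩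

lemma met_iff : Met g D ↔ P354R.Met g D :=
  ⟨fun h => ⟨fun p hp v => (h.1 p hp v).1, fun p hp v => (h.1 p hp v).2.1,
    fun p hp v => (h.1 p hp v).2.2, h.2⟩,
    fun h => ⟨fun p hp v => ⟨h.lin p hp v, h.symm p hp v, h.nondeg p hp v⟩, h.smooth⟩⟩

lemma lor_iff : Lor g D Xf ↔ P354XE.Lor g D Xf :=
  ⟨fun h => ⟨h.isOpen, met_iff.1 h.met, h.vac, h.sig, h.tl, h.cont⟩,
    fun h => ⟨h.isOpen, met_iff.2 h.met, h.vac, h.sig, h.tl, h.cont⟩⟩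

lemma isKr_iff : IsKr M a r1 g ↔ P354XE.IsKr M a r1 g :=
  and_congr (exists_congr fun _ => and_congr Iff.rfl (and_congr Iff.rfl met_iff)) Iff.rfl

lemma isExt_iff : IsExt M a r1 θ R s δ ε N d D g Xf ↔ P354XE.IsExt M a r1 θ R s δ ε N d D g Xf := by
  refine ⟨fun h => ⟨lor_iff.1 h.lor, h.sub, h.ind, h.box, fun σ => ?_⟩,
    fun h => ⟨lor_iff.2 h.lor, h.sub, h.ind, h.box, fun σ => ?_⟩⟩
  · obtain ⟨Y, q, q', β, h1, h2⟩ := h.ends σ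
    exact ⟨Y, q.to, q'.to, β, h1, isEnd_iff.1 h2⟩
  · obtain ⟨Y, q, q', β, h1, h2⟩ := h.ends σ
    exact ⟨Y, Par.of q, Par.of q', β, h1, isEnd_iff.2 h2⟩

/-- The compact form of EXT implies the working form. -/
theorem ext_of (hK : KD) (h : EXT) : P354XE.EXT := by
  intro M a ha hM
  obtain ⟨s, hs, δ, hδ, H⟩ := h M a ha hM
  refine ⟨s, hs, δ, hδ, fun r1 hr => ?_⟩
  obtain ⟨g0, hg, H⟩ := H r1 hr
  refine ⟨g0, isKr_iff.1 hg, fun θ0 h0 => ?_⟩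
  obtain ⟨θ, hθ, H⟩ := H θ0 h0
  refine ⟨θ, hθ, fun R0 => ?_⟩
  obtain ⟨R, hR, H⟩ := H R0
  refine ⟨R, hR, fun N ε hε => ?_⟩
  obtain ⟨ρ, hρ⟩ := exists_wt hM
  obtain ⟨m, η, hη, H⟩ := H N ε hε ρ (isWt_iff.2 hρ)
  obtain ⟨C, -, hC⟩ := eqv M a ρ m hM hρ
  obtain ⟨e, he⟩ := exists_homeo' hK hM hρ
  obtain ⟨η', h1, h2⟩ := P354T.exists_real_lt (ENNReal.div_pos hη.ne' (ENNReal.ofReal_ne_top (r := C)))
  refine ⟨m, η', h1, fun d hd => ?_⟩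
  have h3 : (e.symm d).1 = d.1 := by rw [← he, e.apply_symm_apply]
  obtain ⟨D, g, Xf, h4⟩ := H (e.symm d) (by
    rw [h3, pn_eq', kerr0_eq hM]
    exact lt_of_le_mul (hC _ _ (dsm d) (hK M a hM).1.1).1 (lt_trans hd h2))
  rw [h3] at h4
  exact ⟨D, g, Xf, isExt_iff.1 h4.1, h4.2⟩

/-- The working form of EXT implies the compact form. -/
theorem ext_to (hK : KD) (h : P354XE.EXT) : EXT := by
  intro M a ha hM
  obtain ⟨s, hs, δ, hδ, H⟩ := h M a ha hM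
  refine ⟨s, hs, δ, hδ, fun r1 hr => ?_⟩
  obtain ⟨g0, hg, H⟩ := H r1 hr
  refine ⟨g0, isKr_iff.2 hg, fun θ0 h0 => ?_⟩
  obtain ⟨θ, hθ, H⟩ := H θ0 h0
  refine ⟨θ, hθ, fun R0 => ?_⟩
  obtain ⟨R, hR, H⟩ := H R0
  refine ⟨R, hR, fun N ε hε ρ hρ => ?_⟩
  obtain ⟨m, η, hη, H⟩ := H N ε hε
  obtain ⟨C, -, hC⟩ := eqv M a ρ m hM (isWt_iff.1 hρ)
  obtain ⟨e, he⟩ := exists_homeo' hK hM (isWt_iff.1 hρ)
  refine ⟨m, ENNReal.ofReal η / ENNReal.ofReal C,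
    ENNReal.div_pos (ENNReal.ofReal_pos.2 hη).ne' ENNReal.ofReal_ne_top, fun d hd => ?_⟩
  rw [pn_eq', kerr0_eq hM] at hd
  obtain ⟨D, g, Xf, h4⟩ := H (e d) (by
    show qm m (e d).1 _ < _
    rw [he]
    exact lt_of_le_mul (hC _ _ d.2.smooth (hK M a hM).1.1).2 hd)
  rw [he] at h4
  exact ⟨D, g, Xf, isExt_iff.2 h4.1, h4.2⟩

/-- The conditional theorem in its final form. -/
theorem cond_of (hK : KD) (h : P354XE.EXT → P354XS.Q1') : EXT → P354Z.Q1 :=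
  fun H => q1_lit hK (h (ext_of hK H))

end Vale.Agent.P354SF
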