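import Vale.Agent.P354SF.Bridge
import Vale.Agent.P354XK.KD

/-!
The final forms, without the hypothesis KD.
-/

namespace Vale.Agent.P354SF

/-- The literal statement follows from Q1'. -/
theorem q1_fin (h : P354XS.Q1') : P354Z.Q1 := q1_lit P354XK.kd h

/-- The conditional theorem follows from its working form. -/
theorem cond_fin (h : P354XE.EXT → P354XS.Q1') : EXT → P354Z.Q1 := cond_of P354XK.kd h

end Vale.Agent.P354SF
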