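import Vale.Agent.P354Z.Q1

/-!
The statement EXT of quantitative stability of the part r > r1 (r1 between the horizons) of the
future of the slice t = 0 of the two-ended Kerr spacetime.
-/

open scoped ContDiff
open Set Filter Topology Matrix

noncomputable section

namespace Vale.Agent.P354SF

open Vale.Agent.P354n (R4 IsConn Riem mink)
open Vale.Agent.P354I (X Dat pd dT dP rnd Sg rm rp)
open Vale.Agent.P354Z (DD IsWt pn kerr0)

/-- Fields of bilinear forms. -/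
abbrev Tw : Type := R4 → R4 → R4 → ℝ

/-- The space part of a point, the point with given time and space parts, and the radius. -/
def xs (p : R4) : X := !₂[p.2.1, p.2.2.1, p.2.2.2]
def pt (t : ℝ) (z : X) : R4 := (t, z 0, z 1, z 2)
def rd (p : R4) : ℝ := ‖xs p‖

/-- The pull back of g by f. -/
def pb (f : R4 → R4) (g : Tw) : Tw := fun p v w => g (f p) (fderiv ℝ f p v) (fderiv ℝ f p w)

/-- g is a smooth field of symmetric nondegenerate bilinear forms on D. -/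
def Met (g : Tw) (D : Set R4) : Prop :=
  (∀ p ∈ D, ∀ v, IsLinearMap ℝ (g p v) ∧ (∀ w, g p v w = g p w v) ∧ ((∀ w, g p v w = 0) → v = 0)) ∧
    ∀ v w, ContDiffOn ℝ ∞ (fun p => g p v w) D

/-- A smooth vacuum metric of signature (-,+,+,+) on the open set D, time oriented by Xf. -/
structure Lor (g : Tw) (D : Set R4) (Xf : R4 → R4) : Prop where
  isOpen : IsOpen D
  met : Met g D
  vac : ∃ G, ∀ p ∈ D, IsConn g G p ∧ ∃ E E' : Fin 4 → R4,
    (∀ i j, g p (E i) (E' j) = if i = j then 1 else 0) ∧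
    ∀ v w, ∑ i, Riem g G p (E i) v w (E' i) = 0
  sig : ∀ p ∈ D, ∃ L : R4 → R4, IsLinearMap ℝ L ∧ L.Injective ∧ ∀ v w, g p v w = mink (L v) (L w)
  tl : ∀ p ∈ D, g p (Xf p) (Xf p) < 0
  cont : ContinuousOn Xf D

/-- The data induced by g along J, for the future unit normal, are d. -/
def Ind (g : Tw) (Xf : R4 → R4) (J : X → R4) (d : Dat) : Prop :=
  ∀ y ≠ 0, ∃ G n, IsConn g G (J y) ∧ g (J y) n n = -1 ∧ g (J y) n (Xf (J y)) < 0 ∧ ∀ i k,
    g (J y) (pd i J y) n = 0 ∧ g (J y) (pd i J y) (pd k J y) = d.h y i k ∧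
    -g (J y) n (pd i (pd k J) y + G (J y) (pd i J y) (pd k J y)) = d.K y i k

/-! Kerr in ingoing coordinates (t, z), z = r (sin θ cos φ, sin θ sin φ, cos θ), v = t + r -/

/-- The forms dr and sin^2 θ dφ, and the null form dv - a sin^2 θ dφ. -/
def dr (p v : R4) : ℝ := rd p * dT (xs p) (xs v)
def dq (p v : R4) : ℝ := dP (xs p) (xs v)
def kf (a : ℝ) (p v : R4) : ℝ := v.1 + dr p v - a * dq p v

/-- The Kerr metric. -/
def gin (M a : ℝ) : Tw := fun p v w =>
  -(v.1 * w.1) + dr p v * dr p w - a * (dr p v * dq p w + dq p v * dr p w) +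
    Sg a (rd p) (xs p) * rnd (xs p) (xs v) (xs w) + a ^ 2 * (dq p v * dq p w) +
    2 * M * rd p / Sg a (rd p) (xs p) * (kf a p v * kf a p w)

/-- The function Δ and the surface gravity of the outer horizon. -/
def Del (M a r : ℝ) : ℝ := r ^ 2 - 2 * M * r + a ^ 2
def ka (M a : ℝ) : ℝ := √(M ^ 2 - a ^ 2) / (2 * M * rp M a)

/-- The fields d/dt, the rotations about the three axes (the last one is d/dφ), and the outgoing
principal null field. -/
def eT : R4 := (1, 0)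
def Om (i : Fin 3) (p : R4) : R4 :=
  ![(0, 0, -p.2.2.2, p.2.2.1), (0, p.2.2.2, 0, -p.2.1), (0, -p.2.2.1, p.2.1, 0)] i
def Lo (M a : ℝ) (p : R4) : R4 :=
  (2 * (rd p ^ 2 + a ^ 2) / Del M a (rd p) - 1, (rd p)⁻¹ • p.2) + (2 * a / Del M a (rd p)) • Om 2 p

/-- The retarded time u = v - 2 r_*, which is constant along Lo, and the weight (1 + u^2)^(1/2). -/
def ur (M a : ℝ) (p : R4) : ℝ :=
  p.1 - rd p - (Real.log (rd p - rp M a) - rm M a / rp M a * Real.log (rd p - rm M a)) / ka M a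
def uw (M a : ℝ) (p : R4) : ℝ := √(1 + ur M a p ^ 2)

/-! The Kruskal chart (T, y): U = T - x, V = T + x, r = rp - U V; the slice t = 0 is T = 0,
with the coordinate y of P354Z -/

/-- The function x of y, the length of y as a function of x, and the radius r. -/
def kx (M a : ℝ) (p : R4) : ℝ := √(rd p) - √(M ^ 2 - a ^ 2) / (2 * √(rd p))
def ky (M a x : ℝ) : ℝ := ((x + √(x ^ 2 + 2 * √(M ^ 2 - a ^ 2))) / 2) ^ 2
def kr (M a : ℝ) (p : R4) : ℝ := rp M a + kx M a p ^ 2 - p.1 ^ 2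

/-- The point with the null coordinates U, V, in the direction of z rotated by the angle c. -/
def kp (M a U V c : ℝ) (z : X) : R4 :=
  pt ((U + V) / 2) ((ky M a ((V - U) / 2) / ‖z‖) •
    !₂[Real.cos c * z 0 - Real.sin c * z 1, Real.sin c * z 0 + Real.cos c * z 1, z 2])

/-- The factor m(r) with V = m(r) exp (ka t). -/
def mf (M a r : ℝ) : ℝ := (r - rm M a) ^ (rm M a / (2 * rp M a))

/-- The Kruskal coordinates of the point with ingoing coordinates p; the angle is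
φ - om t_BL, where om is the angular velocity of the outer horizon. -/
def kap (M a : ℝ) (p : R4) : R4 :=
  kp M a (-(rd p - rp M a) / (mf M a (rd p) * Real.exp (ka M a * p.1)))
    (mf M a (rd p) * Real.exp (ka M a * p.1))
    (a / rp M a * Real.log (rd p - rm M a) - a / (2 * M * rp M a) * p.1) (xs p)

/-- The isometry (T, x, θ, φ) ↦ (T, -x, θ, -φ) which exchanges the ends. -/
def mir (M a : ℝ) (p : R4) : R4 :=
  (p.1, ((M ^ 2 - a ^ 2) / (4 * rd p ^ 2)) • (p.2.1, -p.2.2.1, p.2.2.2))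

/-- The ingoing charts of the two ends. -/
def ch (M a : ℝ) (σ : Bool) : R4 → R4 := bif σ then kap M a else mir M a ∘ kap M a

/-- The part r > r1 of the future of the slice T = 0. -/
def D0 (M a r1 : ℝ) : Set R4 := {p | xs p ≠ 0 ∧ 0 ≤ p.1 ∧ r1 < kr M a p}

/-- The part of D0 between the two ends, and the slice T = 0. -/
def Bx (M a r1 θ : ℝ) : Set R4 :=
  {p | p ∈ D0 M a r1 ∧ (p.1 = 0 ∨ p.1 + |kx M a p| ≤ 2 * θ * mf M a (kr M a p))}

/-- An end in ingoing coordinates. -/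
def En (M a r1 θ : ℝ) : Set R4 :=
  {p | r1 < rd p ∧ θ ≤ Real.exp (ka M a * p.1) ∧ 0 ≤ (kap M a p).1}

/-! The estimates -/

/-- Mass, rotation, a scale of the time, and a rotation of the axis. -/
structure Par where
  M : ℝ
  a : ℝ
  l : ℝ
  R : Matrix (Fin 3) (Fin 3) ℝ

def Par.Near (q : Par) (M a ε : ℝ) : Prop :=
  |q.M - M| < ε ∧ |q.a - a| < ε ∧ |q.l - 1| < ε ∧ q.Rᵀ * q.R = 1 ∧ ∀ i j, |(q.R - 1) i j| < ε

/-- The linear map (t, z) ↦ (l t, R z). -/
def Par.lin (q : Par) (p : R4) : R4 := pt (q.l * p.1) (WithLp.toLp 2 (q.R *ᵥ (xs p).ofLp))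

/-- The derivatives of order at most N of the components of h at p are at most c. -/
def Bd (N : ℕ) (h : Tw) (p : R4) (c : ℝ) : Prop :=
  ∀ k ≤ N, ∀ v w : R4, ‖iteratedFDeriv ℝ k (fun x => h x v w) p‖ ≤ c * (‖v‖ * ‖w‖)

/-- The fields d/dt, r Lo and the rotations, and the derivatives along words in these fields. -/
def vf (M a : ℝ) : Fin 5 → R4 → R4 := ![fun _ => eT, fun p => rd p • Lo M a p, Om 0, Om 1, Om 2]
def wd (M a : ℝ) : List (Fin 5) → (R4 → ℝ) → R4 → ℝ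
  | [], f => f
  | i :: α, f => fun p => fderiv ℝ (wd M a α f) p (vf M a i p)

/-- The derivatives of f along words of length at most N are at most c at p, and the derivatives
of df/dt at most c'. -/
def Wb (M a : ℝ) (N : ℕ) (f : R4 → ℝ) (p : R4) (c c' : ℝ) : Prop :=
  ∀ α : List (Fin 5), α.length ≤ N → |wd M a α f p| ≤ c ∧ |wd M a α (wd M a [0] f) p| ≤ c'

/-- The field d/dt + sum of β i times the rotations. -/
def Nf (β : Fin 3 → R4 → ℝ) (p : R4) : R4 := eT + ∑ i, β i p • Om i p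

/-- A weight which is small for large r and large |u|. -/
def wt (M a δ : ℝ) (p : R4) : ℝ := uw M a p ^ (-δ) + rd p ^ (-δ)

/-- The difference of g(Nf, Nf) and the Kerr value of g(d/dt, d/dt). -/
def ftt (M a : ℝ) (g : Tw) (β : Fin 3 → R4 → ℝ) (x : R4) : ℝ :=
  g x (Nf β x) (Nf β x) - gin M a x eT eT

/-- The estimates at a point p far out; Lo is a null field of g (outgoing gauge). -/
structure Far (M a s δ ε : ℝ) (N : ℕ) (g : Tw) (β : Fin 3 → R4 → ℝ) (p : R4) : Prop where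
  gauge : ∀ᶠ x in 𝓝 p, g x (Lo M a x) (Lo M a x) = 0 ∧
    g x (Lo M a x) eT = gin M a x (Lo M a x) eT
  smooth : ∀ i, ContDiffAt ℝ ∞ (β i) p
  la : ∀ i, Wb M a N (fun x => g x (Lo M a x) (Om i x) - gin M a x (Lo M a x) (Om i x)) p ε
    (ε * uw M a p ^ (-s))
  shift : ∀ i, Wb M a N (β i) p (ε * uw M a p ^ (-s)) (ε * uw M a p ^ (-s)) ∧
    Wb M a N (fun x => rd x * wd M a [1] (β i) x) p (ε * wt M a δ p) (ε * wt M a δ p)
  tt : Wb M a N (ftt M a g β) p (ε * (1 + rd p * uw M a p ^ (-s))) (ε * (rd p * uw M a p ^ (-s)))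
  tt' : ∀ i ≠ 0, Wb M a N (wd M a [i] (ftt M a g β)) p (ε * (wt M a δ p + rd p * uw M a p ^ (-s)))
    (ε * (rd p * uw M a p ^ (-s)))
  ta : ∀ i, Wb M a N (fun x => (g x (Nf β x) (Om i x) - gin M a x eT (Om i x)) / rd x) p
    (ε * wt M a δ p) (ε * uw M a p ^ (-s))
  aa : ∀ i j, Wb M a N (fun x => (g x (Om i x) (Om j x) - gin M a x (Om i x) (Om j x)) / rd x ^ 2)
    p ε (ε * uw M a p ^ (-s))

/-- The estimates on an end; g and the time orientation Y are given in the ingoing chart of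
(M, a). For r ≤ R + 2, g is close to Kerr and almost stationary; for r ≤ R it converges to the
Kerr metric with the parameters q; for r ≥ R + 1 it obeys the estimates Far. -/
structure IsEnd (M a r1 θ R s δ ε : ℝ) (N : ℕ) (g : Tw) (Y : R4 → R4) (q q' : Par)
    (β : Fin 3 → R4 → ℝ) : Prop where
  par : q.Near M a ε ∧ q'.Near M a ε
  near : ∀ p ∈ En M a r1 θ, rd p ≤ R + 2 → 0 < (Y p).1 ∧ Bd N (g - gin M a) p ε ∧
    Bd N (fun x v w => fderiv ℝ (fun x => g x v w) x eT) p (ε * (1 + |p.1|) ^ (-s))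
  conv : ∀ p, q.lin p ∈ En M a r1 θ → rd p ≤ R →
    Bd N (pb q.lin g - gin q.M q.a) p (ε * (1 + |p.1|) ^ (-s))
  far : ∀ p, q'.lin p ∈ En M a r1 θ → R + 1 ≤ rd p →
    g (q'.lin p) (Y (q'.lin p)) (q'.lin (Lo q'.M q'.a p)) < 0 ∧
      Far q'.M q'.a s δ ε N (pb q'.lin g) β p

/-- g is a vacuum metric on a neighbourhood D of D0 which induces d on T = 0, for which the
levels of T are spacelike between the ends, and which obeys the estimates on both ends. -/
structure IsExt (M a r1 θ R s δ ε : ℝ) (N : ℕ) (d : Dat) (D : Set R4) (g : Tw) (Xf : R4 → R4) :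
    Prop where
  lor : Lor g D Xf
  sub : D0 M a r1 ⊆ D
  ind : Ind g Xf (pt 0) d
  box : ∀ p ∈ Bx M a r1 θ, 0 < (Xf p).1 ∧ ∀ v ≠ 0, v.1 = 0 → 0 < g p v v
  ends : ∀ σ, ∃ Y q q' β, (∀ p ∈ En M a r1 θ, fderiv ℝ (ch M a σ) p (Y p) = Xf (ch M a σ p)) ∧
    IsEnd M a r1 θ R s δ ε N (pb (ch M a σ) g) Y q q' β

/-- g0 is the Kerr metric in the Kruskal chart, near D0. -/
def IsKr (M a r1 : ℝ) (g0 : Tw) : Prop :=
  (∃ D, IsOpen D ∧ D0 M a r1 ⊆ D ∧ Met g0 D) ∧
    ∀ σ p, r1 < rd p → 0 ≤ (kap M a p).1 → pb (ch M a σ) g0 p = gin M a p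

/-- g is close to g0 between the ends. -/
def Mid (M a r1 θ ε : ℝ) (N : ℕ) (g g0 : Tw) : Prop :=
  ∀ p ∈ D0 M a r1, p.1 + |kx M a p| ≤ 2 * θ * mf M a (kr M a p) → Bd N (g - g0) p ε

/-- EXT: stability of the exterior of Kerr, with rates. -/
def EXT : Prop :=
  ∀ M a : ℝ, a ≠ 0 → |a| < M → ∃ s > 1, ∃ δ > 0, ∀ r1 ∈ Ioo (rm M a) (rp M a), ∃ g0,
    IsKr M a r1 g0 ∧ ∀ θ0 > 0, ∃ θ ∈ Ioo 0 θ0, ∀ R0, ∃ R ≥ R0, ∀ N : ℕ, ∀ ε > 0,
      ∀ ρ, IsWt M a ρ → ∃ m, ∃ η > 0, ∀ d : DD M a ρ, pn (kerr0 M a) ρ m d.1 (kerr0 M a) < η →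
        ∃ D g Xf, IsExt M a r1 θ R s δ ε N d.1 D g Xf ∧ Mid M a r1 θ ε N g g0

end Vale.Agent.P354SF
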